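import Mathlib
import Vale.Agent.P022.H567.Cft

/-!
P022-CFT, block [FRB]: Frobenius and decomposition group of an unramified prime of `E`.
-/

open NumberField IsDedekindDomain Finset

noncomputable section

namespace Vale.Agent.P022.C.H510

open Vale.Agent.P022.C

theorem cyc_fd {K L : Type} [Field K] [Field L] [Algebra K L]
    {n : ℕ} {σ : L ≃ₐ[K] L} (h : Cyc K n σ) : FiniteDimensional K L :=
  FiniteDimensional.of_finrank_pos (h.rank ▸ h.pos)

theorem cyc_card {K L : Type} [Field K] [Field L] [Algebra K L]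
    {n : ℕ} {σ : L ≃ₐ[K] L} (h : Cyc K n σ) :
    Nat.card (L ≃ₐ[K] L) = n ∧ ∀ g : L ≃ₐ[K] L, ∃ i : ℕ, g = σ ^ i := by
  have hfd := cyc_fd h
  have hle : Nat.card (L ≃ₐ[K] L) ≤ n := by
    rw [← h.rank, Nat.card_eq_fintype_card]
    exact AlgEquiv.card_le
  have hz : Nat.card (Subgroup.zpowers σ) = n := by rw [Nat.card_zpowers, h.ord]
  have htop : Subgroup.zpowers σ = ⊤ :=
    Subgroup.eq_top_of_le_card _ (by rw [hz]; exact hle)
  refine ⟨?_, fun g => ?_⟩
  · rw [← hz, htop, Subgroup.card_top]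
  · have hg : g ∈ Subgroup.zpowers σ := htop ▸ Subgroup.mem_top g
    classical
    have hg' := (mem_zpowers_iff_mem_range_orderOf (x := σ) (y := g)).1 hg
    obtain ⟨i, _, hi⟩ := Finset.mem_image.1 hg'
    exact ⟨i, hi.symm⟩

theorem cyc_gal {K L : Type} [Field K] [Field L] [Algebra K L]
    {n : ℕ} {σ : L ≃ₐ[K] L} (h : Cyc K n σ) : IsGalois K L := by
  have hfd := cyc_fd h
  exact IsGalois.of_card_aut_eq_finrank K L (by rw [(cyc_card h).1, h.rank])

section

variable {K L L' E : Type} [Field K] [Field L] [Field L'] [Field E]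
    [Algebra K L] [Algebra K L'] [Algebra K E] [Algebra L E] [Algebra L' E]
    [IsScalarTower K L E] [IsScalarTower K L' E] {n n' : ℕ} {σ : L ≃ₐ[K] L}
    {σ' : L' ≃ₐ[K] L'} {s s' : E ≃ₐ[K] E}

theorem pow_sL (h : Cross K n n' σ σ' s s') (i j : ℕ) (x : L) :
    (s ^ i * s' ^ j) (algebraMap L E x) = algebraMap L E ((σ ^ i) x) := by
  have h1 : ∀ j : ℕ, (s' ^ j) (algebraMap L E x) = algebraMap L E x := by
    intro j
    induction j with
    | zero => rfl
    | succ j ih => rw [pow_succ, AlgEquiv.mul_apply, h.s'L, ih]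
  have h2 : ∀ (i : ℕ) (x : L), (s ^ i) (algebraMap L E x) = algebraMap L E ((σ ^ i) x) := by
    intro i
    induction i with
    | zero => intro x; rfl
    | succ i ih => intro x; rw [pow_succ, AlgEquiv.mul_apply, h.sL, ih, pow_succ, AlgEquiv.mul_apply]
  rw [AlgEquiv.mul_apply, h1, h2]

theorem pow_sL' (h : Cross K n n' σ σ' s s') (i j : ℕ) (x : L') :
    (s ^ i * s' ^ j) (algebraMap L' E x) = algebraMap L' E ((σ' ^ j) x) := by
  have h1 : ∀ (i : ℕ) (x : L'), (s ^ i) (algebraMap L' E x) = algebraMap L' E x := by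
    intro i
    induction i with
    | zero => intro x; rfl
    | succ i ih => intro x; rw [pow_succ, AlgEquiv.mul_apply, h.sL', ih]
  have h2 : ∀ (j : ℕ) (x : L'), (s' ^ j) (algebraMap L' E x) = algebraMap L' E ((σ' ^ j) x) := by
    intro j
    induction j with
    | zero => intro x; rfl
    | succ j ih =>
      intro x; rw [pow_succ, AlgEquiv.mul_apply, h.s'L', ih, pow_succ, AlgEquiv.mul_apply]
  rw [AlgEquiv.mul_apply, h2, h1]

theorem repr (h : Cross K n n' σ σ' s s') (g : E ≃ₐ[K] E) : ∃ i j : ℕ, g = s ^ i * s' ^ j := by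
  have hL := cyc_gal h.cyc
  have hL' := cyc_gal h.cyc'
  obtain ⟨i, hi⟩ := (cyc_card h.cyc).2 (g.restrictNormal L)
  obtain ⟨j, hj⟩ := (cyc_card h.cyc').2 (g.restrictNormal L')
  refine ⟨i, j, ?_⟩
  have key : g⁻¹ * (s ^ i * s' ^ j) = 1 := by
    refine h.ext _ (fun x => ?_) (fun x => ?_)
    · rw [AlgEquiv.mul_apply, pow_sL h, ← hi, AlgEquiv.restrictNormal_commutes]
      exact g.symm_apply_apply _
    · rw [AlgEquiv.mul_apply, pow_sL' h, ← hj, AlgEquiv.restrictNormal_commutes]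
      exact g.symm_apply_apply _
  exact (inv_mul_eq_one.1 key)

theorem cross_fd (h : Cross K n n' σ σ' s s') : FiniteDimensional K E :=
  FiniteDimensional.of_finrank_pos (h.rank ▸ Nat.mul_pos h.cyc.pos h.cyc'.pos)

theorem cross_gal (h : Cross K n n' σ σ' s s') : IsGalois K E := by
  have hfd := cross_fd h
  refine IsGalois.of_card_aut_eq_finrank K E (le_antisymm ?_ ?_)
  · rw [Nat.card_eq_fintype_card]
    exact AlgEquiv.card_le
  · rw [h.rank]
    have hinj : Function.Injective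
        (fun p : Fin n × Fin n' => s ^ (p.1 : ℕ) * s' ^ (p.2 : ℕ)) := by
      rintro ⟨i, j⟩ ⟨k, l⟩ he
      have he' : s ^ (i : ℕ) * s' ^ (j : ℕ) = s ^ (k : ℕ) * s' ^ (l : ℕ) := he
      have h1 : σ ^ (i : ℕ) = σ ^ (k : ℕ) := by
        ext x
        apply (algebraMap L E).injective
        rw [← pow_sL h i j, ← pow_sL h k l, he']
      have h2 : σ' ^ (j : ℕ) = σ' ^ (l : ℕ) := by
        ext x
        apply (algebraMap L' E).injective
        rw [← pow_sL' h i j, ← pow_sL' h k l, he']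
      have h3 : (i : ℕ) = k := pow_injOn_Iio_orderOf
        (by simp [h.cyc.ord]) (by simp [h.cyc.ord]) h1
      have h4 : (j : ℕ) = l := pow_injOn_Iio_orderOf
        (by simp [h.cyc'.ord]) (by simp [h.cyc'.ord]) h2
      exact Prod.ext (Fin.ext h3) (Fin.ext h4)
    have := Nat.card_le_card_of_injective _ hinj
    simpa using this

end

/-- the Galois action on integers -/
theorem coe_smul {K E : Type} [Field K] [Field E] [Algebra K E] (g : E ≃ₐ[K] E) (x : 𝓞 E) :
    ((g • x : 𝓞 E) : E) = g (x : E) := rfl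

section

variable {K L L' E : Type} [Field K] [Field L] [Field L'] [Field E]
    [Algebra K L] [Algebra K L'] [Algebra K E] [Algebra L E] [Algebra L' E]
    [IsScalarTower K L E] [IsScalarTower K L' E] {n n' : ℕ} {σ : L ≃ₐ[K] L}
    {σ' : L' ≃ₐ[K] L'} {s s' : E ≃ₐ[K] E}

theorem smul_sL (h : Cross K n n' σ σ' s s') (i j : ℕ) (x : 𝓞 L) :
    (s ^ i * s' ^ j) • (algebraMap (𝓞 L) (𝓞 E) x) = algebraMap (𝓞 L) (𝓞 E) ((σ ^ i) • x) :=
  RingOfIntegers.ext (pow_sL h i j (x : L))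

theorem smul_sL' (h : Cross K n n' σ σ' s s') (i j : ℕ) (x : 𝓞 L') :
    (s ^ i * s' ^ j) • (algebraMap (𝓞 L') (𝓞 E) x) = algebraMap (𝓞 L') (𝓞 E) ((σ' ^ j) • x) :=
  RingOfIntegers.ext (pow_sL' h i j (x : L'))

end

open scoped Pointwise in
attribute [local instance] Ideal.Quotient.field in
theorem resid {K E : Type} [Field K] [NumberField K] [Field E] [NumberField E] [Algebra K E]
    [IsGalois K E] [FiniteDimensional K E] (w : HeightOneSpectrum (𝓞 E)) (F : E ≃ₐ[K] E)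
    (hfin : Finite (𝓞 E ⧸ w.asIdeal))
    (hF : ∀ x : 𝓞 E, F • x - x ^ Nat.card (𝓞 K ⧸ w.asIdeal.under (𝓞 K)) ∈ w.asIdeal)
    (g : E ≃ₐ[K] E) (hg : Ideal.comap (RingOfIntegers.mapRingHom (g : E →+* E)) w.asIdeal =
        w.asIdeal) : ∃ k : ℕ, ∀ x : 𝓞 E, (F ^ k) • x - g • x ∈ w.asIdeal := by
  set P := w.asIdeal.under (𝓞 K) with hP
  have hst : g ∈ MulAction.stabilizer (E ≃ₐ[K] E) w.asIdeal := by
    rw [MulAction.mem_stabilizer_iff]
    have hg' : Ideal.comap (MulSemiringAction.toRingEquiv (E ≃ₐ[K] E) (𝓞 E) g) w.asIdeal =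
        w.asIdeal := hg
    conv_lhs => rw [← hg']
    rw [Ideal.pointwise_smul_def]
    exact w.asIdeal.map_comap_eq_self_of_equiv
      (MulSemiringAction.toRingEquiv (E ≃ₐ[K] E) (𝓞 E) g)
  have hwm : w.asIdeal.IsMaximal := w.isMaximal
  have hPf : Finite (𝓞 K ⧸ P) := .of_injective _ Ideal.algebraMap_quotient_injective
  have hPm : P.IsMaximal := Ideal.Quotient.maximal_of_isField _ (Finite.isField_of_domain (𝓞 K ⧸ P))
  cases nonempty_fintype (𝓞 K ⧸ P)
  obtain ⟨k, hk⟩ := (FiniteField.bijective_frobeniusAlgEquivOfAlgebraic_pow (𝓞 K ⧸ P)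
    (𝓞 E ⧸ w.asIdeal)).2 (Ideal.Quotient.stabilizerHom w.asIdeal P (E ≃ₐ[K] E) ⟨g, hst⟩)
  refine ⟨k, fun x => ?_⟩
  have h1 : ∀ (j : ℕ) (x : 𝓞 E), Ideal.Quotient.mk w.asIdeal ((F ^ j) • x) =
      (Ideal.Quotient.mk w.asIdeal x) ^ (Fintype.card (𝓞 K ⧸ P) ^ j) := by
    intro j
    induction j with
    | zero => intro x; simp
    | succ j ih =>
      intro x
      have h2 : Ideal.Quotient.mk w.asIdeal (F • x) =
          (Ideal.Quotient.mk w.asIdeal x) ^ Fintype.card (𝓞 K ⧸ P) := by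
        rw [← map_pow, Ideal.Quotient.eq, ← Nat.card_eq_fintype_card]
        exact hF x
      rw [pow_succ, mul_smul, ih, h2, ← pow_mul, pow_succ, mul_comm]
  rw [← Ideal.Quotient.eq, h1]
  have h3 := DFunLike.congr_fun hk (Ideal.Quotient.mk w.asIdeal x)
  have h4 : (Ideal.Quotient.stabilizerHom w.asIdeal P (E ≃ₐ[K] E) ⟨g, hst⟩)
      (Ideal.Quotient.mk w.asIdeal x) = Ideal.Quotient.mk w.asIdeal (g • x) := rfl
  rw [← h4, ← h3]
  simp only [AlgEquiv.coe_pow, FiniteField.coe_frobeniusAlgEquivOfAlgebraic_iterate]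

theorem FRB : FRBStmt := by
  intro K L L' E _ _ _ _ _ _ _ _ _ _ _ _ _ _ _ n n' σ σ' s s' h w hu hu'
  have hgal := cross_gal h
  have hfd := cross_fd h
  have hin : ∀ g : E ≃ₐ[K] E, (∀ x : 𝓞 E, g • x - x ∈ w.asIdeal) → g = 1 := by
    intro g hg
    obtain ⟨i, j, hij⟩ := repr h g
    have h1 : σ ^ i = 1 := by
      apply hu
      intro x
      have := hg (algebraMap (𝓞 L) (𝓞 E) x)
      rw [hij, smul_sL h, ← map_sub] at this
      exact this
    have h2 : σ' ^ j = 1 := by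
      apply hu'
      intro x
      have := hg (algebraMap (𝓞 L') (𝓞 E) x)
      rw [hij, smul_sL' h, ← map_sub] at this
      exact this
    apply h.ext
    · intro x
      rw [hij, pow_sL h, h1]
      rfl
    · intro x
      rw [hij, pow_sL' h, h2]
      rfl
  refine ⟨hin, ?_⟩
  have hfin : Finite (𝓞 E ⧸ w.asIdeal) := Ideal.finiteQuotientOfFreeOfNeBot w.asIdeal w.ne_bot
  have hcard : Nat.card (𝓞 K ⧸ w.asIdeal.under (𝓞 K)) = Ideal.absNorm (dn K w.asIdeal) := rfl
  obtain ⟨F, hF⟩ := IsArithFrobAt.exists_of_isInvariant (𝓞 K) (E ≃ₐ[K] E) w.asIdeal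
  obtain ⟨a, b, hab⟩ := repr h F
  have hFr : Frob F (Ideal.absNorm (dn K w.asIdeal)) w.asIdeal := fun x => hF x
  refine ⟨a, b, hab ▸ hFr, ?_, ?_, ?_⟩
  · intro x
    have := hFr (algebraMap (𝓞 L) (𝓞 E) x)
    rw [hab, smul_sL h, ← map_pow, ← map_sub] at this
    exact this
  · intro x
    have := hFr (algebraMap (𝓞 L') (𝓞 E) x)
    rw [hab, smul_sL' h, ← map_pow, ← map_sub] at this
    exact this
  · intro g hg
    rw [← hab]
    obtain ⟨k, hk⟩ := resid w F hfin (fun x => hF x) g hg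
    refine ⟨k, ?_⟩
    have h1 : F ^ k * g⁻¹ = 1 := by
      apply hin
      intro x
      have := hk (g⁻¹ • x)
      rwa [smul_inv_smul, ← mul_smul] at this
    rw [mul_inv_eq_one.1 h1]

end Vale.Agent.P022.C.H510
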